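import Vale.Agent.Helper13.StarW

/-!
# From the hyperbolic form `G_nonneg` to the rational merging inequality (starW) of P254
-/

namespace Vale.Agent.Helper13.StarW

open Real

theorem sinh_exp_form (x : ℝ) : sinh x = (exp x ^ 2 - 1) / (2 * exp x) := by
  have h : exp x ≠ 0 := (exp_pos x).ne'
  rw [sinh_eq, exp_neg]; field_simp

theorem cosh_exp_form (x : ℝ) : cosh x = (exp x ^ 2 + 1) / (2 * exp x) := by
  have h : exp x ≠ 0 := (exp_pos x).ne'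
  rw [cosh_eq, exp_neg]; field_simp

/-- per-variable: the `x`-term in rational form (`e = exp (lam/2)`, `w = exp v`). -/
theorem x_rat (e w : ℝ) (he : 1 < e) (hw : 1 ≤ w) :
    ((w^2 - 1) / (2 * w)) / (((e^2 - 1) / (2 * e)) * (((e*w)^2 - 1) / (2 * (e*w))))
      = 2 * (e^2)⁻¹ * (1 - (w^2)⁻¹) / ((1 - (e^2)⁻¹) * (1 - (e^2)⁻¹ * (w^2)⁻¹)) := by
  have he0 : e ≠ 0 := by positivity
  have hw0 : w ≠ 0 := by positivity
  have hew : 1 < e * w := by nlinarith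
  have h1 : e^2 - 1 ≠ 0 := by nlinarith
  have h2 : (e*w)^2 - 1 ≠ 0 := by nlinarith
  have h2' : e^2*w^2 - 1 ≠ 0 := by nlinarith
  field_simp

/-- per-variable: the `z`-term in rational form. -/
theorem z_rat (e w : ℝ) (he : 1 < e) (hw : 1 ≤ w) :
    ((w^2 - 1) / (2 * w)) / (((e^2 + 1) / (2 * e)) * (((e*w)^2 + 1) / (2 * (e*w))))
      = 2 * (e^2)⁻¹ * (1 - (w^2)⁻¹) / ((1 + (e^2)⁻¹) * (1 + (e^2)⁻¹ * (w^2)⁻¹)) := by
  have he0 : e ≠ 0 := by positivity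
  have hw0 : w ≠ 0 := by positivity
  field_simp

/-- per-variable rational identities: the three summands of (starW) are linear in the
`x`- and `z`-terms. -/
theorem perk (Q a x z : ℝ) (hQ0 : 0 < Q) (hQ1 : Q < 1) (ha0 : 0 < a) (ha1 : a ≤ 1)
    (hx : x = 2 * Q * (1 - a) / ((1 - Q) * (1 - Q * a)))
    (hz : z = 2 * Q * (1 - a) / ((1 + Q) * (1 + Q * a))) :
    (1 - a) / (1 - Q^2 * a^2) = ((1 - Q) * x + (1 + Q) * z) / (4 * Q)
    ∧ a * (1 - a) / (1 - Q^2 * a^2) = ((1 - Q) * x - (1 + Q) * z) / (4 * Q^2)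
    ∧ (1 - a)^2 / (1 - Q^2 * a^2) = ((1 + Q)^2 * z - (1 - Q)^2 * x) / (4 * Q^2) := by
  have hQa : Q * a < 1 := by nlinarith
  have h1 : (1 - Q) ≠ 0 := by linarith
  have h2 : (1 - Q * a) ≠ 0 := by linarith
  have h3 : (1 + Q) ≠ 0 := by positivity
  have h4 : (1 + Q * a) ≠ 0 := by positivity
  have h5 : Q ≠ 0 := hQ0.ne'
  have h2' : (1 - a * Q) ≠ 0 := by rw [mul_comm]; exact h2
  have h4' : (1 + a * Q) ≠ 0 := by rw [mul_comm]; exact h4
  have h6 : 1 - Q^2 * a^2 ≠ 0 := by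
    have : 1 - Q^2 * a^2 = (1 - Q * a) * (1 + Q * a) := by ring
    rw [this]; exact mul_ne_zero h2 h4
  have h6' : 1 - Q^2 * a^2 = (1 - Q * a) * (1 + Q * a) := by ring
  subst hx hz
  rw [h6']
  refine ⟨?_, ?_, ?_⟩
  · field_simp; ring
  · field_simp; ring
  · field_simp; ring

/-- final algebra: the rational (starW) difference is `2 Q C` times the hyperbolic one. -/
theorem final_alg (Q C X Z c U0 U1 L : ℝ) (hQ : 0 < Q) (hC : 0 < C) (hc : c = C^2)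
    (hU0 : U0 = ((1 - Q) * X + (1 + Q) * Z) / (4 * Q))
    (hU1 : U1 = ((1 - Q) * X - (1 + Q) * Z) / (4 * Q^2))
    (hL : L = ((1 + Q)^2 * Z - (1 - Q)^2 * X) / (4 * Q^2))
    (hG : 4 * ((C^2 - Q^2) / (2 * Q * C))
      ≤ 1 / 2 * ((1 - Q^2) / (2 * Q)) * ((1 - Q^2 * C^2) / (2 * Q * C)) * (X + Z)
        + 4 * ((1 + C^2) / (2 * C)) * ((1 + Q)^2 / (4 * Q) * Z - (1 - Q)^2 / (4 * Q) * X)
        + 1 / 2 * ((1 - Q^2) / (2 * Q)) * ((1 + C^2) / (2 * C)) * (X * Z)) :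
    4 * (c - Q^2) ≤ (1 - Q^2 * c) * (U0 + Q^2 * U1)
      + (1 + c) * Q^2 * (4 * L + U0^2 - Q^2 * U1^2) := by
  have hQ' : Q ≠ 0 := hQ.ne'
  have hC' : C ≠ 0 := hC.ne'
  have key : (1 - Q^2 * c) * (U0 + Q^2 * U1) + (1 + c) * Q^2 * (4 * L + U0^2 - Q^2 * U1^2)
        - 4 * (c - Q^2)
      = 2 * Q * C * ((1 / 2 * ((1 - Q^2) / (2 * Q)) * ((1 - Q^2 * C^2) / (2 * Q * C)) * (X + Z)
        + 4 * ((1 + C^2) / (2 * C)) * ((1 + Q)^2 / (4 * Q) * Z - (1 - Q)^2 / (4 * Q) * X)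
        + 1 / 2 * ((1 - Q^2) / (2 * Q)) * ((1 + C^2) / (2 * C)) * (X * Z))
        - 4 * ((C^2 - Q^2) / (2 * Q * C))) := by
    rw [hU0, hU1, hL, hc]
    field_simp
    ring
  have h0 : 0 ≤ 2 * Q * C * ((1 / 2 * ((1 - Q^2) / (2 * Q)) * ((1 - Q^2 * C^2) / (2 * Q * C)) * (X + Z)
        + 4 * ((1 + C^2) / (2 * C)) * ((1 + Q)^2 / (4 * Q) * Z - (1 - Q)^2 / (4 * Q) * X)
        + 1 / 2 * ((1 - Q^2) / (2 * Q)) * ((1 + C^2) / (2 * C)) * (X * Z))
        - 4 * ((C^2 - Q^2) / (2 * Q * C))) :=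
    mul_nonneg (by positivity) (sub_nonneg.mpr hG)
  rw [← key] at h0
  linarith

/-- **The merging inequality (starW)** in the rational variables of the `W_n` problem. -/
theorem starW {ι : Type*} (R : Finset ι) (a : ι → ℝ) (c p U0 U1 L : ℝ) (hc0 : 0 < c) (hc1 : c < 1)
    (ha : ∀ k ∈ R, c ≤ a k ^ 2 ∧ 0 < a k ∧ a k ≤ 1) (hp : p = c * ∏ k ∈ R, a k)
    (hU0 : U0 = ∑ k ∈ R, (1 - a k) / (1 - p * a k ^ 2))
    (hU1 : U1 = ∑ k ∈ R, a k * (1 - a k) / (1 - p * a k ^ 2))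
    (hL : L = ∑ k ∈ R, (1 - a k) ^ 2 / (1 - p * a k ^ 2)) :
    4 * (c - p) ≤ (1 - p * c) * (U0 + p * U1) + (1 + c) * p * (4 * L + U0 ^ 2 - p * U1 ^ 2) := by
  obtain ⟨mu, hmu_def⟩ : ∃ mu : ℝ, mu = -Real.log c / 2 := ⟨_, rfl⟩
  obtain ⟨v, hv_def⟩ : ∃ v : ι → ℝ, v = fun k => -Real.log (a k) / 2 := ⟨_, rfl⟩
  obtain ⟨lam, hlam⟩ : ∃ lam : ℝ, lam = mu + ∑ k ∈ R, v k := ⟨_, rfl⟩
  have hlogc : Real.log c < 0 := Real.log_neg hc0 hc1
  have hmu : 0 < mu := by rw [hmu_def]; linarith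
  have hv : ∀ k ∈ R, 0 ≤ v k ∧ v k ≤ mu / 2 := by
    intro k hk
    obtain ⟨h1, h2, h3⟩ := ha k hk
    have l1 : Real.log (a k) ≤ 0 := Real.log_nonpos h2.le h3
    have l2 : Real.log c ≤ 2 * Real.log (a k) := by
      have := Real.log_le_log hc0 h1
      rwa [Real.log_pow, Nat.cast_ofNat] at this
    rw [hv_def, hmu_def]
    constructor <;> simp only <;> linarith
  have hV : 0 ≤ ∑ k ∈ R, v k := Finset.sum_nonneg fun k hk => (hv k hk).1
  have hlam_pos : 0 < lam := by rw [hlam]; linarith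
  -- exponential atoms
  obtain ⟨e, he_def⟩ : ∃ e : ℝ, e = Real.exp (lam / 2) := ⟨_, rfl⟩
  obtain ⟨M, hM_def⟩ : ∃ M : ℝ, M = Real.exp mu := ⟨_, rfl⟩
  have he1 : 1 < e := by rw [he_def]; exact Real.one_lt_exp_iff.mpr (by linarith)
  have hM1 : 1 < M := by rw [hM_def]; exact Real.one_lt_exp_iff.mpr hmu
  have he0 : 0 < e := by linarith
  have hM0 : 0 < M := by linarith
  have he0' : e ≠ 0 := he0.ne'
  have hM0' : M ≠ 0 := hM0.ne'
  have hel : Real.exp lam = e^2 := by rw [he_def, sq, ← Real.exp_add]; congr 1; ring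
  have hcM : c = (M⁻¹)^2 := by
    rw [hM_def, inv_pow, sq, ← Real.exp_add, hmu_def,
      show -Real.log c / 2 + -Real.log c / 2 = -Real.log c by ring, Real.exp_neg,
      Real.exp_log hc0, inv_inv]
  have hak : ∀ k ∈ R, a k = ((Real.exp (v k))^2)⁻¹ := by
    intro k hk
    obtain ⟨h1, h2, h3⟩ := ha k hk
    rw [hv_def]
    simp only
    rw [sq, ← Real.exp_add,
      show -Real.log (a k) / 2 + -Real.log (a k) / 2 = -Real.log (a k) by ring, Real.exp_neg,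
      Real.exp_log h2, inv_inv]
  have hpe : p = (e^4)⁻¹ := by
    have h4 : e^4 = Real.exp (2 * lam) := by
      rw [he_def, ← Real.exp_nat_mul]; congr 1; push_cast; ring
    rw [h4, hlam, mul_add, Real.exp_add, Finset.mul_sum, Real.exp_sum, mul_inv,
      ← Finset.prod_inv_distrib, hp]
    congr 1
    · rw [hmu_def, show 2 * (-Real.log c / 2) = -Real.log c by ring, Real.exp_neg,
        Real.exp_log hc0, inv_inv]
    · apply Finset.prod_congr rfl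
      intro k hk
      obtain ⟨h1, h2, h3⟩ := ha k hk
      rw [hv_def]
      simp only
      rw [show 2 * (-Real.log (a k) / 2) = -Real.log (a k) by ring, Real.exp_neg,
        Real.exp_log h2, inv_inv]
  obtain ⟨Q, hQ_def⟩ : ∃ Q : ℝ, Q = (e^2)⁻¹ := ⟨_, rfl⟩
  have hQ0 : 0 < Q := by rw [hQ_def]; positivity
  have hQ1 : Q < 1 := by rw [hQ_def]; exact inv_lt_one_of_one_lt₀ (by nlinarith)
  have hpQ : p = Q^2 := by rw [hpe, hQ_def, inv_pow]; ring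
  -- the hyperbolic sums
  obtain ⟨X, hX⟩ : ∃ X : ℝ,
      X = ∑ k ∈ R, Real.sinh (v k) / (Real.sinh (lam / 2) * Real.sinh (lam / 2 + v k)) :=
    ⟨_, rfl⟩
  obtain ⟨Z, hZ⟩ : ∃ Z : ℝ,
      Z = ∑ k ∈ R, Real.sinh (v k) / (Real.cosh (lam / 2) * Real.cosh (lam / 2 + v k)) :=
    ⟨_, rfl⟩
  have hG := G_nonneg R v lam mu X Z hmu hv hlam hX hZ
  -- per-variable rational forms
  have hxk : ∀ k ∈ R, Real.sinh (v k) / (Real.sinh (lam / 2) * Real.sinh (lam / 2 + v k))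
      = 2 * Q * (1 - a k) / ((1 - Q) * (1 - Q * a k)) := by
    intro k hk
    have hw : 1 ≤ Real.exp (v k) := Real.one_le_exp (hv k hk).1
    rw [sinh_exp_form (v k), sinh_exp_form (lam / 2), sinh_exp_form (lam / 2 + v k),
      Real.exp_add, ← he_def, hak k hk, hQ_def]
    exact x_rat e (Real.exp (v k)) he1 hw
  have hzk : ∀ k ∈ R, Real.sinh (v k) / (Real.cosh (lam / 2) * Real.cosh (lam / 2 + v k))
      = 2 * Q * (1 - a k) / ((1 + Q) * (1 + Q * a k)) := by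
    intro k hk
    have hw : 1 ≤ Real.exp (v k) := Real.one_le_exp (hv k hk).1
    rw [sinh_exp_form (v k), cosh_exp_form (lam / 2), cosh_exp_form (lam / 2 + v k),
      Real.exp_add, ← he_def, hak k hk, hQ_def]
    exact z_rat e (Real.exp (v k)) he1 hw
  rw [hpQ] at hU0 hU1 hL ⊢
  have hU0' : U0 = ((1 - Q) * X + (1 + Q) * Z) / (4 * Q) := by
    rw [hU0, hX, hZ, Finset.mul_sum, Finset.mul_sum, ← Finset.sum_add_distrib, Finset.sum_div]
    apply Finset.sum_congr rfl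
    intro k hk
    exact (perk Q (a k) _ _ hQ0 hQ1 (ha k hk).2.1 (ha k hk).2.2 (hxk k hk) (hzk k hk)).1
  have hU1' : U1 = ((1 - Q) * X - (1 + Q) * Z) / (4 * Q^2) := by
    rw [hU1, hX, hZ, Finset.mul_sum, Finset.mul_sum, ← Finset.sum_sub_distrib, Finset.sum_div]
    apply Finset.sum_congr rfl
    intro k hk
    exact (perk Q (a k) _ _ hQ0 hQ1 (ha k hk).2.1 (ha k hk).2.2 (hxk k hk) (hzk k hk)).2.1
  have hL' : L = ((1 + Q)^2 * Z - (1 - Q)^2 * X) / (4 * Q^2) := by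
    rw [hL, hX, hZ, Finset.mul_sum, Finset.mul_sum, ← Finset.sum_sub_distrib, Finset.sum_div]
    apply Finset.sum_congr rfl
    intro k hk
    exact (perk Q (a k) _ _ hQ0 hQ1 (ha k hk).2.1 (ha k hk).2.2 (hxk k hk) (hzk k hk)).2.2
  -- hyperbolic values in terms of Q and C = M⁻¹
  have hsl : Real.sinh lam = (1 - Q^2) / (2 * Q) := by
    rw [sinh_exp_form, hel, hQ_def]; field_simp
  have hslm : Real.sinh (lam + mu) = (1 - Q^2 * (M⁻¹)^2) / (2 * Q * M⁻¹) := by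
    rw [sinh_exp_form, Real.exp_add, hel, ← hM_def, hQ_def]; field_simp
  have hcm : Real.cosh mu = (1 + (M⁻¹)^2) / (2 * M⁻¹) := by
    rw [cosh_exp_form, ← hM_def]; field_simp
  have hc2 : Real.cosh (lam / 2) ^ 2 = (1 + Q)^2 / (4 * Q) := by
    rw [cosh_exp_form, ← he_def, hQ_def]; field_simp; ring
  have hs2 : Real.sinh (lam / 2) ^ 2 = (1 - Q)^2 / (4 * Q) := by
    rw [sinh_exp_form, ← he_def, hQ_def]; field_simp; ring
  have hsk : Real.sinh (lam - mu) = ((M⁻¹)^2 - Q^2) / (2 * Q * M⁻¹) := by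
    rw [sinh_exp_form, Real.exp_sub, hel, ← hM_def, hQ_def]; field_simp
  rw [hsl, hslm, hcm, hc2, hs2, hsk] at hG
  exact final_alg Q M⁻¹ X Z c U0 U1 L hQ0 (by positivity) hcM hU0' hU1' hL' hG

end Vale.Agent.Helper13.StarW
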